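import Vale.Agent.P031.Defs

namespace Vale.Agent.P031

open Filter Topology

lemma V_subset {x : ℝ} :
    {v : ℕ | (∃ n : ℕ, 1 ≤ n ∧ Nat.totient n = v) ∧ (v : ℝ) ≤ x} ⊆ (Finset.Icc 1 ⌊x⌋₊ : Set ℕ) := by
  rintro v ⟨⟨n, hn, rfl⟩, hv⟩
  simp only [Finset.coe_Icc, Set.mem_Icc]
  have h1 : 1 ≤ Nat.totient n := Nat.totient_pos.2 hn
  exact ⟨h1, Nat.le_floor hv⟩

lemma V_finite (x : ℝ) :
    {v : ℕ | (∃ n : ℕ, 1 ≤ n ∧ Nat.totient n = v) ∧ (v : ℝ) ≤ x}.Finite :=
  (Finset.finite_toSet _).subset V_subset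

lemma V_mono {x y : ℝ} (h : x ≤ y) : V x ≤ V y :=
  Set.ncard_le_ncard (fun _ hv => ⟨hv.1, hv.2.trans h⟩) (V_finite y)

lemma V_pos {x : ℝ} (hx : 1 ≤ x) : 0 < V x := by
  unfold V
  rw [Set.ncard_pos (V_finite x)]
  exact ⟨1, ⟨1, le_rfl, by simp⟩, by simpa using hx⟩

lemma V_le {x : ℝ} (hx : 0 ≤ x) : (V x : ℝ) ≤ x := by
  have h1 : V x ≤ (Finset.Icc 1 ⌊x⌋₊ : Set ℕ).ncard :=
    Set.ncard_le_ncard V_subset (Finset.finite_toSet _)
  rw [Set.ncard_coe_finset, Nat.card_Icc] at h1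
  have h2 : (V x : ℝ) ≤ (⌊x⌋₊ : ℝ) := by
    have : V x ≤ ⌊x⌋₊ := by omega
    exact_mod_cast this
  exact h2.trans (Nat.floor_le hx)

lemma pi_le_V (x : ℝ) : Nat.primeCounting ⌊x⌋₊ ≤ V x := by
  have h0 : Nat.primeCounting ⌊x⌋₊ = ((Finset.range (⌊x⌋₊ + 1)).filter Nat.Prime).card := by
    rw [Nat.primeCounting, Nat.primeCounting', Nat.count_eq_card_filter_range]
  rw [h0]
  have hinj : Set.InjOn (fun p : ℕ => p - 1)
      (((Finset.range (⌊x⌋₊ + 1)).filter Nat.Prime : Finset ℕ) : Set ℕ) := by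
    intro p hp q hq h
    simp only [Finset.coe_filter, Finset.mem_range, Set.mem_ofPred_eq] at hp hq
    have hp1 := hp.2.one_lt
    have hq1 := hq.2.one_lt
    simp only at h
    omega
  rw [← Finset.card_image_of_injOn hinj, ← Set.ncard_coe_finset]
  refine Set.ncard_le_ncard ?_ (V_finite x)
  intro v hv
  simp only [Finset.coe_image, Finset.coe_filter, Finset.mem_range, Set.mem_image,
    Set.mem_ofPred_eq] at hv
  obtain ⟨p, ⟨hp1, hp2⟩, rfl⟩ := hv
  refine ⟨⟨p, hp2.one_lt.le, Nat.totient_prime hp2⟩, ?_⟩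
  have h3 : p ≤ ⌊x⌋₊ := by omega
  have hx : 0 ≤ x := by
    by_contra hx
    have h4 : ⌊x⌋₊ = 0 := Nat.floor_of_nonpos (not_le.1 hx).le
    have := hp2.one_lt
    omega
  have h5 : ((p - 1 : ℕ) : ℝ) ≤ (⌊x⌋₊ : ℝ) := by
    have : p - 1 ≤ ⌊x⌋₊ := by omega
    exact_mod_cast this
  exact h5.trans (Nat.floor_le hx)

/-- `V y ≥ y / (4 log y)` for large `y`. -/
lemma V_lower : ∀ᶠ y : ℝ in atTop, y / (4 * Real.log y) ≤ (V y : ℝ) := by
  have h1 : ∀ᶠ y : ℝ in atTop, Real.log y ≤ (1 / 16) * y := by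
    have h := Real.isLittleO_log_id_atTop.def (show (0 : ℝ) < 1 / 16 by norm_num)
    filter_upwards [h, eventually_ge_atTop 1] with y hy hy1
    have h2 : (0 : ℝ) ≤ Real.log y := Real.log_nonneg hy1
    simp only [id, Real.norm_eq_abs, abs_of_nonneg h2, abs_of_nonneg (zero_le_one.trans hy1)] at hy
    exact hy
  filter_upwards [h1, eventually_ge_atTop 8] with y hy hy8
  have hlog : 0 < Real.log y := Real.log_pos (by linarith)
  have h3 := Chebyshev.pi_ge' (x := y) (by linarith)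
  have h4 : ((Nat.primeCounting ⌊y⌋₊ : ℕ) : ℝ) ≤ (V y : ℝ) := by exact_mod_cast pi_le_V y
  refine le_trans ?_ (h3.trans h4)
  have h5 : Real.log (y + 2) ≤ Real.log 2 + Real.log y := by
    rw [← Real.log_mul (by norm_num) (by linarith)]
    exact Real.log_le_log (by linarith) (by linarith)
  have h6 : (1 / 2 : ℝ) ≤ Real.log 2 := by
    have := Real.log_two_gt_d9
    linarith
  have h6' : Real.log 2 ≤ 1 := by
    have := Real.log_two_lt_d9
    linarith
  rw [div_le_div_iff₀ (by positivity) hlog]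
  have h7 : y / 4 ≤ (y - 1) * Real.log 2 - Real.log (y + 2) := by
    nlinarith
  nlinarith

lemma tendsto_logV : Tendsto (fun y : ℝ => Real.log (V y) / Real.log y) atTop (𝓝 1) := by
  have h1 : Tendsto (fun t : ℝ => Real.log (4 * t) / t) atTop (𝓝 0) := by
    have h2 : Tendsto (fun t : ℝ => Real.log t / t) atTop (𝓝 0) := by
      have := Real.isLittleO_log_id_atTop.tendsto_div_nhds_zero
      simpa using this
    have h3 : Tendsto (fun t : ℝ => Real.log 4 / t) atTop (𝓝 0) :=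
      tendsto_const_nhds.div_atTop tendsto_id
    have h4 := h3.add h2
    rw [add_zero] at h4
    refine h4.congr' ?_
    filter_upwards [eventually_gt_atTop 0] with t ht
    rw [Real.log_mul (by norm_num) ht.ne', add_div]
  have h5 : Tendsto (fun y : ℝ => 1 - Real.log (4 * Real.log y) / Real.log y) atTop (𝓝 1) := by
    have h6 := (h1.comp Real.tendsto_log_atTop).const_sub 1
    rw [sub_zero] at h6
    exact h6
  refine tendsto_of_tendsto_of_tendsto_of_le_of_le' h5 tendsto_const_nhds ?_ ?_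
  · filter_upwards [V_lower, eventually_gt_atTop 1] with y hy hy1
    have hlog : 0 < Real.log y := Real.log_pos hy1
    have hy0 : 0 < y := by linarith
    have h7 : Real.log (y / (4 * Real.log y)) ≤ Real.log (V y) :=
      Real.log_le_log (by positivity) hy
    rw [Real.log_div hy0.ne' (by positivity)] at h7
    rw [le_div_iff₀ hlog]
    have h8 : (1 - Real.log (4 * Real.log y) / Real.log y) * Real.log y
        = Real.log y - Real.log (4 * Real.log y) := by
      field_simp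
    rw [h8]
    exact h7
  · filter_upwards [eventually_gt_atTop 1] with y hy1
    have hlog : 0 < Real.log y := Real.log_pos hy1
    have hV : 0 < (V y : ℝ) := by exact_mod_cast V_pos hy1.le
    rw [div_le_iff₀ hlog, one_mul]
    exact Real.log_le_log hV (V_le (by linarith))

/-- along geometric progressions -/
lemma tendsto_geom {c x0 : ℝ} (hc : 1 < c) (hx : 1 ≤ x0) :
    Tendsto (fun k : ℕ => Real.log (V (c ^ k * x0)) / k) atTop (𝓝 (Real.log c)) := by
  have h1 : Tendsto (fun k : ℕ => c ^ k * x0) atTop atTop :=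
    (tendsto_pow_atTop_atTop_of_one_lt hc).atTop_mul_const (by linarith)
  have h2 := tendsto_logV.comp h1
  have h3 : Tendsto (fun k : ℕ => Real.log (c ^ k * x0) / k) atTop (𝓝 (Real.log c)) := by
    have h4 : Tendsto (fun k : ℕ => Real.log c + Real.log x0 / k) atTop (𝓝 (Real.log c + 0)) :=
      tendsto_const_nhds.add (tendsto_const_nhds.div_atTop tendsto_natCast_atTop_atTop)
    rw [add_zero] at h4
    refine h4.congr' ?_
    filter_upwards [eventually_gt_atTop 0] with k hk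
    have hk' : (k : ℝ) ≠ 0 := by exact_mod_cast hk.ne'
    rw [Real.log_mul (pow_ne_zero _ (by linarith)) (by linarith), Real.log_pow]
    field_simp
  have h5 := h2.mul h3
  rw [one_mul] at h5
  refine h5.congr' ?_
  filter_upwards [eventually_gt_atTop 0] with k hk
  have hk' : (k : ℝ) ≠ 0 := by exact_mod_cast hk.ne'
  have h6 : 1 < c ^ k * x0 := by
    have : 1 < c ^ k := one_lt_pow₀ hc hk.ne'
    nlinarith
  have h7 : Real.log (c ^ k * x0) ≠ 0 := (Real.log_pos h6).ne'
  simp only [Function.comp]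
  field_simp

end Vale.Agent.P031
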