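import Vale.Agent.P031.Double

namespace Vale.Agent.P031

open Filter Topology

lemma V_step {x s : ℝ} (hs1 : s ≤ 1) : V (x + s) ≤ V x + 1 := by
  have h1 : {v : ℕ | (∃ n : ℕ, 1 ≤ n ∧ Nat.totient n = v) ∧ (v : ℝ) ≤ x + s} ⊆
      insert ⌊x + s⌋₊ {v : ℕ | (∃ n : ℕ, 1 ≤ n ∧ Nat.totient n = v) ∧ (v : ℝ) ≤ x} := by
    rintro v ⟨hv1, hv2⟩
    by_cases h : (v : ℝ) ≤ x
    · exact Or.inr ⟨hv1, h⟩
    · left
      rw [not_le] at h
      symm
      have h0 : (0 : ℝ) ≤ v := Nat.cast_nonneg v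
      rw [Nat.floor_eq_iff (by linarith)]
      exact ⟨hv2, by linarith⟩
  calc V (x + s) ≤ (insert ⌊x + s⌋₊
        {v : ℕ | (∃ n : ℕ, 1 ≤ n ∧ Nat.totient n = v) ∧ (v : ℝ) ≤ x}).ncard :=
        Set.ncard_le_ncard h1 ((V_finite x).insert _)
    _ ≤ V x + 1 := Set.ncard_insert_le _ _

lemma V_tendsto : Tendsto (fun x : ℝ => (V x : ℝ)) atTop atTop := by
  rw [tendsto_atTop]
  intro b
  have h1 := tendsto_logV.eventually (lt_mem_nhds (show (1 / 2 : ℝ) < 1 by norm_num))
  have h2 := Real.tendsto_log_atTop.eventually_ge_atTop (2 * Real.log (max b 1))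
  filter_upwards [h1, h2, eventually_gt_atTop 1] with x hx1 hx2 hx3
  have h3 : 0 < Real.log x := Real.log_pos hx3
  rw [lt_div_iff₀ h3] at hx1
  have h4 : Real.log (max b 1) ≤ Real.log (V x) := by linarith
  have h5 : (0 : ℝ) < V x := by exact_mod_cast V_pos hx3.le
  have h6 := (Real.log_le_log_iff (lt_of_lt_of_le one_pos (le_max_right b 1)) h5).1 h4
  exact (le_max_left _ _).trans h6

/-- the ratio `V(cx)/V(x)` -/
noncomputable def rat (c x : ℝ) : ℝ := (V (c * x) : ℝ) / V x

lemma step_low {c ε x s : ℝ} (hc : 1 < c) (hε : 0 < ε) (hx : 1 ≤ x) (hs0 : 0 ≤ s)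
    (hs : c * s ≤ 1) (hV : 1 / ε ≤ V x) (h : rat c x ≤ c - ε)
    (hfar : ε ≤ |rat c (x + s) - c|) : rat c (x + s) ≤ c - ε := by
  have hVp : (0 : ℝ) < V x := by exact_mod_cast V_pos hx
  have h1 : (V (c * (x + s)) : ℝ) ≤ V (c * x) + 1 := by
    rw [mul_add]
    exact_mod_cast V_step hs
  have h2 : (V x : ℝ) ≤ V (x + s) := by exact_mod_cast V_mono (by linarith)
  have h3 : rat c (x + s) ≤ rat c x + 1 / V x := by
    unfold rat
    rw [← add_div]
    exact div_le_div₀ (by positivity) h1 hVp h2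
  have h4 : 1 / (V x : ℝ) ≤ ε := by
    rw [div_le_iff₀ hVp]
    rw [div_le_iff₀ hε] at hV
    linarith
  rcases le_abs.1 hfar with h5 | h5
  · linarith
  · linarith

lemma step_high {c ε x s : ℝ} (hc : 1 < c) (hε : 0 < ε) (hx : 1 ≤ x) (hs0 : 0 ≤ s)
    (hs : c * s ≤ 1) (hV : c / ε ≤ V x) (h : c + ε ≤ rat c x)
    (hfar : ε ≤ |rat c (x + s) - c|) : c + ε ≤ rat c (x + s) := by
  have hVp : (0 : ℝ) < V x := by exact_mod_cast V_pos hx
  have hs1 : s ≤ 1 := by nlinarith
  have h1 : (V (x + s) : ℝ) ≤ V x + 1 := by exact_mod_cast V_step hs1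
  have h1' : (0 : ℝ) < V (x + s) := by
    exact_mod_cast V_pos (show (1 : ℝ) ≤ x + s by linarith)
  have h2 : (V (c * x) : ℝ) ≤ V (c * (x + s)) := by
    exact_mod_cast V_mono (mul_le_mul_of_nonneg_left (by linarith) (by linarith))
  have h3 : (V (c * x) : ℝ) / (V x + 1) ≤ rat c (x + s) := by
    unfold rat
    exact div_le_div₀ (by positivity) h2 h1' h1
  unfold rat at h
  rw [le_div_iff₀ hVp] at h
  rcases le_abs.1 hfar with h5 | h5
  · linarith
  · exfalso
    have h6 : (V (c * x) : ℝ) / (V x + 1) ≤ c - ε := by linarith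
    rw [div_le_iff₀ (by linarith)] at h6
    rw [div_le_iff₀ hε] at hV
    nlinarith

lemma frequently_near {c ε : ℝ} (hc : 1 < c) (hε : 0 < ε) :
    ∃ᶠ x : ℝ in atTop, |rat c x - c| < ε := by
  by_contra hcon
  rw [not_frequently] at hcon
  have hev := (hcon.and (V_tendsto.eventually_ge_atTop (max (1 / ε) (c / ε)))).and
    (eventually_ge_atTop (1 : ℝ))
  obtain ⟨X, hX⟩ := eventually_atTop.1 hev
  have hc0 : 0 < c := by linarith
  have key : ∀ (P : ℝ → Prop), P X → (∀ x s : ℝ, X ≤ x → 0 ≤ s → c * s ≤ 1 → P x → P (x + s)) →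
      ∀ y, X ≤ y → P y := by
    intro P h0 hstep y hy
    have hn : ∀ n : ℕ, P (X + n * (1 / c)) := by
      intro n
      induction n with
      | zero => simpa using h0
      | succ n ih =>
        have h1 : X + ((n + 1 : ℕ) : ℝ) * (1 / c) = (X + n * (1 / c)) + 1 / c := by
          push_cast
          ring
        rw [h1]
        refine hstep _ _ ?_ (by positivity) ?_ ih
        · have : 0 ≤ (n : ℝ) * (1 / c) := by positivity
          linarith
        · rw [mul_one_div_cancel hc0.ne']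
    set n : ℕ := ⌊(y - X) * c⌋₊ with hnn
    have h2 : (n : ℝ) ≤ (y - X) * c := Nat.floor_le (mul_nonneg (by linarith) hc0.le)
    have h3 : (y - X) * c < n + 1 := Nat.lt_floor_add_one _
    have h4 : y = (X + n * (1 / c)) + (y - X - n * (1 / c)) := by ring
    rw [h4]
    refine hstep _ _ ?_ ?_ ?_ (hn n)
    · have : 0 ≤ (n : ℝ) * (1 / c) := by positivity
      linarith
    · have : (n : ℝ) * (1 / c) ≤ y - X := by
        rw [mul_one_div, div_le_iff₀ hc0]
        exact h2
      linarith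
    · have : c * (y - X - n * (1 / c)) = (y - X) * c - n := by
        field_simp
      rw [this]
      linarith
  have hX0 := hX X le_rfl
  have hfar0 : ε ≤ |rat c X - c| := not_lt.1 hX0.1.1
  rcases le_abs.1 hfar0 with h5 | h5
  · have h6 : ∀ y, X ≤ y → c + ε ≤ rat c y := by
      refine key (fun y => c + ε ≤ rat c y) (by linarith) ?_
      intro x s hx hs0 hs hP
      have h7 := hX x hx
      have h8 := hX (x + s) (by linarith)
      exact step_high hc hε h7.2 hs0 hs ((le_max_right _ _).trans h7.1.2) hP (not_lt.1 h8.1.1)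
    obtain ⟨x, hx1, hx2⟩ := ((freq_le hc (show c < c + ε / 2 by linarith)).and_eventually
      (eventually_ge_atTop X)).exists
    have h9 := h6 x hx2
    unfold rat at h9
    linarith
  · have h6 : ∀ y, X ≤ y → rat c y ≤ c - ε := by
      refine key (fun y => rat c y ≤ c - ε) (by linarith) ?_
      intro x s hx hs0 hs hP
      have h7 := hX x hx
      have h8 := hX (x + s) (by linarith)
      exact step_low hc hε h7.2 hs0 hs ((le_max_left _ _).trans h7.1.2) hP (not_lt.1 h8.1.1)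
    have h10 : max (c - ε / 2) (c / 2) < c := max_lt (by linarith) (by linarith)
    have h11 : 0 < max (c - ε / 2) (c / 2) := lt_of_lt_of_le (by linarith) (le_max_right _ _)
    obtain ⟨x, hx1, hx2⟩ := ((freq_ge hc h11 h10).and_eventually
      (eventually_ge_atTop X)).exists
    have h9 := h6 x hx2
    have h12 := (le_max_left (c - ε / 2) (c / 2)).trans hx1
    unfold rat at h9
    linarith

lemma cluster {c : ℝ} (hc : 1 < c) :
    MapClusterPt c atTop (fun x : ℝ => (V (c * x) : ℝ) / V x) := by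
  rw [mapClusterPt_iff_frequently]
  intro s hs
  obtain ⟨ε, hε, hsub⟩ := Metric.mem_nhds_iff.1 hs
  refine (frequently_near hc hε).mono fun x hx => hsub ?_
  rw [Metric.mem_ball, Real.dist_eq]
  exact hx

lemma clusterU : MapClusterPt (1 / 2 : ℝ) atTop (fun x : ℝ => (U x : ℝ) / V x) := by
  rw [mapClusterPt_iff_frequently]
  intro s hs
  have h1 : ContinuousAt (fun t : ℝ => 1 - t⁻¹) 2 :=
    continuousAt_const.sub (continuousAt_inv₀ (by norm_num))
  have h2 : (fun t : ℝ => 1 - t⁻¹) ⁻¹' s ∈ 𝓝 (2 : ℝ) := by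
    apply h1.preimage_mem_nhds
    have h3 : (1 : ℝ) - 2⁻¹ = 1 / 2 := by norm_num
    simp only [h3]
    exact hs
  have h4 := (mapClusterPt_iff_frequently.1 (cluster (by norm_num : (1 : ℝ) < 2))) _ h2
  rw [frequently_atTop]
  intro a
  obtain ⟨x, hx1, hx2⟩ := (h4.and_eventually (eventually_ge_atTop (max a 1))).exists
  have h5 := (le_max_left a 1).trans hx2
  have h6 := (le_max_right a 1).trans hx2
  refine ⟨2 * x, by linarith, ?_⟩
  rw [U_div h6]
  exact hx1

end Vale.Agent.P031
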