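import Mathlib

/-! # P031: the counting function of totient values -/

namespace Vale.Agent.P031

/-- `V x` is the number of distinct values `v ≤ x` of Euler's function `φ(n)`, `n ≥ 1`. -/
noncomputable def V (x : ℝ) : ℕ :=
  Set.ncard {v : ℕ | (∃ n : ℕ, 1 ≤ n ∧ Nat.totient n = v) ∧ (v : ℝ) ≤ x}

/-- `U x` is the number of values `v ≤ x` of Euler's function such that `v / 2` is not a value of
Euler's function. -/
noncomputable def U (x : ℝ) : ℕ :=
  Set.ncard {v : ℕ | ((∃ n : ℕ, 1 ≤ n ∧ Nat.totient n = v) ∧ (v : ℝ) ≤ x) ∧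
    ¬ ∃ m : ℕ, 1 ≤ m ∧ 2 * Nat.totient m = v}

end Vale.Agent.P031
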