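import Vale.Agent.P031.Main

namespace Vale.Agent.P031

open Filter Topology

/-- twice a totient value is a totient value -/
lemma two_mul_totient (m : ℕ) (hm : 1 ≤ m) : ∃ n : ℕ, 1 ≤ n ∧ Nat.totient n = 2 * Nat.totient m := by
  rcases Nat.even_or_odd m with h | h
  · refine ⟨2 * m, by omega, ?_⟩
    rw [Nat.totient_mul_of_prime_of_dvd Nat.prime_two h.two_dvd]
  · refine ⟨4 * m, by omega, ?_⟩
    have h1 : Nat.Coprime 4 m := by
      have h2 : Nat.Coprime 2 m := (Nat.coprime_two_left).2 h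
      have : (4 : ℕ) = 2 ^ 2 := by norm_num
      rw [this]
      exact Nat.Coprime.pow_left 2 h2
    rw [Nat.totient_mul h1]
    have h3 : Nat.totient 4 = 2 := by decide
    rw [h3]

lemma V_split (x : ℝ) : V (2 * x) = V x + U (2 * x) := by
  have hfin := V_finite (2 * x)
  have h1 : {v : ℕ | (∃ n : ℕ, 1 ≤ n ∧ Nat.totient n = v) ∧ (v : ℝ) ≤ 2 * x}
      = (fun v : ℕ => 2 * v) '' {v : ℕ | (∃ n : ℕ, 1 ≤ n ∧ Nat.totient n = v) ∧ (v : ℝ) ≤ x} ∪
        {v : ℕ | ((∃ n : ℕ, 1 ≤ n ∧ Nat.totient n = v) ∧ (v : ℝ) ≤ 2 * x) ∧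
          ¬ ∃ m : ℕ, 1 ≤ m ∧ 2 * Nat.totient m = v} := by
    ext v
    constructor
    · rintro ⟨hv1, hv2⟩
      by_cases h : ∃ m : ℕ, 1 ≤ m ∧ 2 * Nat.totient m = v
      · left
        obtain ⟨m, hm, rfl⟩ := h
        refine ⟨Nat.totient m, ⟨⟨m, hm, rfl⟩, ?_⟩, rfl⟩
        push_cast at hv2
        linarith
      · right
        exact ⟨⟨hv1, hv2⟩, h⟩
    · rintro (⟨w, ⟨⟨m, hm, rfl⟩, hw⟩, rfl⟩ | h)
      · refine ⟨two_mul_totient m hm, ?_⟩
        push_cast
        linarith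
      · exact h.1
  have h2 : Disjoint ((fun v : ℕ => 2 * v) ''
        {v : ℕ | (∃ n : ℕ, 1 ≤ n ∧ Nat.totient n = v) ∧ (v : ℝ) ≤ x})
        {v : ℕ | ((∃ n : ℕ, 1 ≤ n ∧ Nat.totient n = v) ∧ (v : ℝ) ≤ 2 * x) ∧
          ¬ ∃ m : ℕ, 1 ≤ m ∧ 2 * Nat.totient m = v} := by
    rw [Set.disjoint_left]
    rintro v ⟨w, ⟨⟨m, hm, rfl⟩, hw⟩, rfl⟩ h
    exact h.2 ⟨m, hm, rfl⟩
  have h3 : V (2 * x) = ((fun v : ℕ => 2 * v) ''
        {v : ℕ | (∃ n : ℕ, 1 ≤ n ∧ Nat.totient n = v) ∧ (v : ℝ) ≤ x}).ncard + U (2 * x) := by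
    unfold U
    rw [← Set.ncard_union_eq h2 ((V_finite x).image _) (hfin.subset fun v hv => hv.1), ← h1]
    rfl
  rw [h3, Set.ncard_image_of_injective _ (fun a b h => by simpa using h)]
  rfl

lemma U_div {x : ℝ} (hx : 1 ≤ x) : (U (2 * x) : ℝ) / V (2 * x) = 1 - ((V (2 * x) : ℝ) / V x)⁻¹ := by
  have h1 : (V (2 * x) : ℝ) = V x + U (2 * x) := by exact_mod_cast V_split x
  have h2 : (0 : ℝ) < V x := by exact_mod_cast V_pos hx
  have h3 : (0 : ℝ) < V (2 * x) := by exact_mod_cast V_pos (show (1 : ℝ) ≤ 2 * x by linarith)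
  rw [inv_div, eq_sub_iff_add_eq, ← add_div, div_eq_one_iff_eq h3.ne', h1]
  ring

/-- the ratio at `2` converges iff the proportion of non-doubled values converges; the limits are
then `2` and `1 / 2`. -/
lemma double_iff :
    (∃ L : ℝ, Tendsto (fun x : ℝ => (V (2 * x) : ℝ) / V x) atTop (𝓝 L)) ↔
      Tendsto (fun x : ℝ => (U x : ℝ) / V x) atTop (𝓝 (1 / 2)) := by
  constructor
  · rintro ⟨L, h⟩
    have hL := limit_eq (by norm_num) h
    rw [hL] at h
    have h1 : Tendsto (fun x : ℝ => 1 - ((V (2 * x) : ℝ) / V x)⁻¹) atTop (𝓝 (1 / 2)) := by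
      have h2 := (h.inv₀ (by norm_num)).const_sub 1
      have h3 : (1 : ℝ) - 2⁻¹ = 1 / 2 := by norm_num
      rw [h3] at h2
      exact h2
    have h4 : Tendsto (fun x : ℝ => (U (2 * x) : ℝ) / V (2 * x)) atTop (𝓝 (1 / 2)) := by
      refine h1.congr' ?_
      filter_upwards [eventually_ge_atTop 1] with x hx
      rw [U_div hx]
    have h5 : Tendsto (fun x : ℝ => x / 2) atTop atTop := tendsto_id.atTop_div_const (by norm_num)
    refine (h4.comp h5).congr fun x => ?_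
    simp only [Function.comp]
    rw [mul_div_cancel₀ x (by norm_num : (2 : ℝ) ≠ 0)]
  · intro h
    refine ⟨2, ?_⟩
    have h5 : Tendsto (fun x : ℝ => 2 * x) atTop atTop := tendsto_id.const_mul_atTop (by norm_num)
    have h6 := ((h.comp h5).const_sub 1).inv₀ (by norm_num)
    have h7 : ((1 : ℝ) - 1 / 2)⁻¹ = 2 := by norm_num
    rw [h7] at h6
    refine h6.congr' ?_
    filter_upwards [eventually_ge_atTop 1] with x hx
    simp only [Function.comp]
    rw [U_div hx, sub_sub_cancel, inv_inv]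

lemma U_liminf : liminf (fun x : ℝ => (((U x : ℝ) / V x : ℝ) : EReal)) atTop ≤ ((1 / 2 : ℝ) : EReal) := by
  refine EReal.le_of_forall_lt_iff_le.1 fun L hL => ?_
  have hL' : 1 / 2 < L := by exact_mod_cast hL
  refine liminf_le_of_frequently_le' ?_
  -- ratio `r = V(2x)/V(x) ≤ 1/(1-L)` frequently
  rcases lt_or_ge L 1 with h1 | h1
  · have h2 : (2 : ℝ) < (1 - L)⁻¹ := by
      rw [lt_inv_comm₀ (by norm_num) (by linarith)]
      linarith
    rw [frequently_atTop]
    intro a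
    obtain ⟨x, hx1, hx2⟩ := ((freq_le (by norm_num : (1 : ℝ) < 2) h2).and_eventually
      (eventually_ge_atTop (max a 1))).exists
    refine ⟨2 * x, ?_, ?_⟩
    · have := (le_max_left a 1).trans hx2
      have := (le_max_right a 1).trans hx2
      linarith
    · have h3 := (le_max_right a 1).trans hx2
      rw [U_div h3]
      have h4 : (0 : ℝ) < V x := by exact_mod_cast V_pos h3
      have h5 : (0 : ℝ) < V (2 * x) := by exact_mod_cast V_pos (show (1 : ℝ) ≤ 2 * x by linarith)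
      have h6 : 1 - L ≤ ((V (2 * x) : ℝ) / V x)⁻¹ := by
        rw [le_inv_comm₀ (by linarith) (by positivity)]
        exact hx1
      have h7 : 1 - ((V (2 * x) : ℝ) / V x)⁻¹ ≤ L := by linarith
      exact_mod_cast h7
  · rw [frequently_atTop]
    intro a
    refine ⟨max (2 * a) 2, ?_, ?_⟩
    · rcases le_or_gt 0 a with h | h
      · exact le_trans (by linarith) (le_max_left _ _)
      · exact le_trans (by linarith) (le_max_right _ _)
    · have h3 : (1 : ℝ) ≤ max (2 * a) 2 / 2 := by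
        have := le_max_right (2 * a) 2
        linarith
      have h4 := U_div h3
      have h5 : 2 * (max (2 * a) 2 / 2) = max (2 * a) 2 := by ring
      rw [h5] at h4
      rw [h4]
      have h6 : (0 : ℝ) ≤ ((V (max (2 * a) 2) : ℝ) / V (max (2 * a) 2 / 2))⁻¹ := by positivity
      have h7 : 1 - ((V (max (2 * a) 2) : ℝ) / V (max (2 * a) 2 / 2))⁻¹ ≤ L := by linarith
      exact_mod_cast h7

lemma U_limsup : ((1 / 2 : ℝ) : EReal) ≤ limsup (fun x : ℝ => (((U x : ℝ) / V x : ℝ) : EReal)) atTop := by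
  refine EReal.ge_of_forall_gt_iff_ge.1 fun L hL => ?_
  have hL' : L < 1 / 2 := by exact_mod_cast hL
  refine le_limsup_of_frequently_le' ?_
  have h2 : (1 - L)⁻¹ < (2 : ℝ) := by
    rw [inv_lt_comm₀ (by linarith) (by norm_num)]
    linarith
  have h0 : (0 : ℝ) < (1 - L)⁻¹ := inv_pos.2 (by linarith)
  rw [frequently_atTop]
  intro a
  obtain ⟨x, hx1, hx2⟩ := ((freq_ge (by norm_num : (1 : ℝ) < 2) h0 h2).and_eventually
    (eventually_ge_atTop (max a 1))).exists
  refine ⟨2 * x, ?_, ?_⟩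
  · have := (le_max_left a 1).trans hx2
    have := (le_max_right a 1).trans hx2
    linarith
  · have h3 := (le_max_right a 1).trans hx2
    rw [U_div h3]
    have h4 : (0 : ℝ) < V x := by exact_mod_cast V_pos h3
    have h5 : (0 : ℝ) < V (2 * x) := by exact_mod_cast V_pos (show (1 : ℝ) ≤ 2 * x by linarith)
    have h6 : ((V (2 * x) : ℝ) / V x)⁻¹ ≤ 1 - L := by
      rw [inv_le_comm₀ (by positivity) (by linarith)]
      exact hx1
    have h7 : L ≤ 1 - ((V (2 * x) : ℝ) / V x)⁻¹ := by linarith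
    exact_mod_cast h7

end Vale.Agent.P031
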