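import Vale.Agent.P031.Main

namespace Vale.Agent.P031

open Filter Topology

/-- `t` is good if `V(e^t x) / V(x) → e^t`. -/
def Good (t : ℝ) : Prop :=
  Tendsto (fun x : ℝ => (V (Real.exp t * x) : ℝ) / V x) atTop (𝓝 (Real.exp t))

lemma eventually_V_pos {a : ℝ} (ha : 0 < a) : ∀ᶠ x : ℝ in atTop, 0 < (V (a * x) : ℝ) := by
  have h : Tendsto (fun x : ℝ => a * x) atTop atTop := tendsto_id.const_mul_atTop ha
  filter_upwards [h.eventually_ge_atTop 1] with x hx
  exact_mod_cast V_pos hx

lemma good_zero : Good 0 := by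
  unfold Good
  rw [Real.exp_zero]
  refine tendsto_const_nhds.congr' ?_
  filter_upwards [eventually_ge_atTop 1] with x hx
  have h : (V x : ℝ) ≠ 0 := by exact_mod_cast (V_pos hx).ne'
  rw [one_mul, div_self h]

lemma good_add {s t : ℝ} (hs : Good s) (ht : Good t) : Good (s + t) := by
  unfold Good at *
  have h1 : Tendsto (fun x : ℝ => Real.exp t * x) atTop atTop :=
    tendsto_id.const_mul_atTop (Real.exp_pos t)
  have h2 := (hs.comp h1).mul ht
  rw [← Real.exp_add] at h2
  refine h2.congr' ?_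
  filter_upwards [eventually_V_pos (Real.exp_pos t)] with x hx
  simp only [Function.comp]
  rw [Real.exp_add, mul_assoc, div_mul_div_cancel₀ hx.ne']

lemma good_neg {t : ℝ} (ht : Good t) : Good (-t) := by
  unfold Good at *
  have h1 : Tendsto (fun x : ℝ => Real.exp (-t) * x) atTop atTop :=
    tendsto_id.const_mul_atTop (Real.exp_pos _)
  have h2 := (ht.comp h1).inv₀ (Real.exp_pos t).ne'
  rw [← Real.exp_neg] at h2
  refine h2.congr fun x => ?_
  simp only [Function.comp]
  rw [inv_div, ← mul_assoc, ← Real.exp_add, add_neg_cancel, Real.exp_zero, one_mul]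

/-- the group of good exponents -/
def goodGroup : AddSubgroup ℝ where
  carrier := {t | Good t}
  zero_mem' := good_zero
  add_mem' := fun hs ht => good_add hs ht
  neg_mem' := fun ht => good_neg ht

lemma good_of_dense (h : Dense (goodGroup : Set ℝ)) (t : ℝ) : Good t := by
  unfold Good
  rw [tendsto_order]
  constructor
  · intro a ha
    rcases le_or_gt a 0 with ha0 | ha0
    · filter_upwards [eventually_V_pos (Real.exp_pos t), eventually_ge_atTop 1] with x hx hx1
      have h1 : 0 < (V x : ℝ) := by exact_mod_cast V_pos hx1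
      exact lt_of_le_of_lt ha0 (by positivity)
    · have h1 : Real.log a < t := by rwa [Real.log_lt_iff_lt_exp ha0]
      obtain ⟨s, hs, hs1, hs2⟩ := h.exists_between h1
      have hs3 : Good s := hs
      have h2 : a < Real.exp s := by rwa [← Real.log_lt_iff_lt_exp ha0]
      filter_upwards [hs3.eventually (lt_mem_nhds h2), eventually_ge_atTop 1] with x hx hx1
      refine hx.trans_le ?_
      refine div_le_div_of_nonneg_right ?_ (Nat.cast_nonneg _)
      have h3 : Real.exp s * x ≤ Real.exp t * x :=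
        mul_le_mul_of_nonneg_right (Real.exp_le_exp.2 hs2.le) (by linarith)
      exact_mod_cast V_mono h3
  · intro a ha
    have ha0 : 0 < a := (Real.exp_pos t).trans ha
    have h1 : t < Real.log a := by rwa [Real.lt_log_iff_exp_lt ha0]
    obtain ⟨s, hs, hs1, hs2⟩ := h.exists_between h1
    have hs3 : Good s := hs
    have h2 : Real.exp s < a := by rwa [← Real.lt_log_iff_exp_lt ha0]
    filter_upwards [hs3.eventually (gt_mem_nhds h2), eventually_ge_atTop 1] with x hx hx1
    refine lt_of_le_of_lt ?_ hx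
    refine div_le_div_of_nonneg_right ?_ (Nat.cast_nonneg _)
    have h3 : Real.exp t * x ≤ Real.exp s * x :=
      mul_le_mul_of_nonneg_right (Real.exp_le_exp.2 hs1.le) (by linarith)
    exact_mod_cast V_mono h3

lemma good_log {a L : ℝ} (ha : 1 < a)
    (h : Tendsto (fun x : ℝ => (V (a * x) : ℝ) / V x) atTop (𝓝 L)) : Good (Real.log a) := by
  have h1 := limit_eq ha h
  unfold Good
  rw [Real.exp_log (by linarith)]
  rw [h1] at h
  exact h

lemma two_values {a b : ℝ} (ha : 1 < a) (hb : 1 < b)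
    (hab : Irrational (Real.log a / Real.log b))
    (h1 : ∃ L : ℝ, Tendsto (fun x : ℝ => (V (a * x) : ℝ) / V x) atTop (𝓝 L))
    (h2 : ∃ L : ℝ, Tendsto (fun x : ℝ => (V (b * x) : ℝ) / V x) atTop (𝓝 L))
    {c : ℝ} (hc : 0 < c) :
    Tendsto (fun x : ℝ => (V (c * x) : ℝ) / V x) atTop (𝓝 c) := by
  obtain ⟨L1, h1⟩ := h1
  obtain ⟨L2, h2⟩ := h2
  have hd : Dense ((AddSubgroup.closure {Real.log a, Real.log b} : AddSubgroup ℝ) : Set ℝ) :=
    dense_addSubgroupClosure_pair_iff.2 hab
  have hle : AddSubgroup.closure {Real.log a, Real.log b} ≤ goodGroup := by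
    rw [AddSubgroup.closure_le]
    intro t ht
    rcases ht with rfl | ht
    · exact good_log ha h1
    · rw [Set.mem_singleton_iff] at ht
      rw [ht]
      exact good_log hb h2
  have hd2 : Dense (goodGroup : Set ℝ) := hd.mono hle
  have h3 := good_of_dense hd2 (Real.log c)
  unfold Good at h3
  rwa [Real.exp_log hc] at h3

lemma irr23 : Irrational (Real.log 2 / Real.log 3) := by
  rintro ⟨q, hq⟩
  have h2 : 0 < Real.log 2 := Real.log_pos (by norm_num)
  have h3 : 0 < Real.log 3 := Real.log_pos (by norm_num)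
  have hq0 : (0 : ℝ) < q := by
    rw [hq]
    positivity
  have hq0' : 0 < q := by exact_mod_cast hq0
  have hnum : 0 < q.num := Rat.num_pos.2 hq0'
  obtain ⟨m, hm⟩ := Int.eq_ofNat_of_zero_le hnum.le
  have h4 : (q : ℝ) = (m : ℝ) / (q.den : ℝ) := by
    rw [Rat.cast_def, hm]
    simp
  have hden : (0 : ℝ) < q.den := by exact_mod_cast q.den_pos
  rw [h4, div_eq_div_iff hden.ne' h3.ne'] at hq
  have h5 : Real.log ((3 : ℝ) ^ m) = Real.log ((2 : ℝ) ^ q.den) := by
    rw [Real.log_pow, Real.log_pow]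
    linarith
  have h6 : (3 : ℝ) ^ m = (2 : ℝ) ^ q.den :=
    Real.log_injOn_pos (Set.mem_Ioi.2 (by positivity)) (Set.mem_Ioi.2 (by positivity)) h5
  have h7 : (3 : ℕ) ^ m = 2 ^ q.den := by exact_mod_cast h6
  have h8 : (2 : ℕ) ∣ 3 ^ m := by
    rw [h7]
    exact dvd_pow_self 2 q.den_pos.ne'
  have h9 := Nat.Prime.dvd_of_dvd_pow Nat.prime_two h8
  omega

end Vale.Agent.P031
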