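import Vale.Agent.P031.Basic

namespace Vale.Agent.P031

open Filter Topology

lemma geom_ge {c L x0 : ℝ} (hc : 1 < c) (hL : 0 < L) (hx : 1 ≤ x0)
    (h : ∀ x, x0 ≤ x → L * V x ≤ V (c * x)) (k : ℕ) :
    L ^ k * V x0 ≤ V (c ^ k * x0) := by
  induction k with
  | zero => simp
  | succ k ih =>
    have h1 : x0 ≤ c ^ k * x0 := by
      have : 1 ≤ c ^ k := one_le_pow₀ hc.le
      nlinarith
    have h2 := h _ h1
    have h3 : c * (c ^ k * x0) = c ^ (k + 1) * x0 := by ring
    rw [h3] at h2
    calc L ^ (k + 1) * V x0 = L * (L ^ k * V x0) := by ring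
      _ ≤ L * V (c ^ k * x0) := mul_le_mul_of_nonneg_left ih hL.le
      _ ≤ _ := h2

lemma geom_le {c l x0 : ℝ} (hc : 1 < c) (hl : 0 < l) (hx : 1 ≤ x0)
    (h : ∀ x, x0 ≤ x → (V (c * x) : ℝ) ≤ l * V x) (k : ℕ) :
    (V (c ^ k * x0) : ℝ) ≤ l ^ k * V x0 := by
  induction k with
  | zero => simp
  | succ k ih =>
    have h1 : x0 ≤ c ^ k * x0 := by
      have : 1 ≤ c ^ k := one_le_pow₀ hc.le
      nlinarith
    have h2 := h _ h1
    have h3 : c * (c ^ k * x0) = c ^ (k + 1) * x0 := by ring
    rw [h3] at h2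
    calc (V (c ^ (k + 1) * x0) : ℝ) ≤ l * V (c ^ k * x0) := h2
      _ ≤ l * (l ^ k * V x0) := mul_le_mul_of_nonneg_left ih hl.le
      _ = l ^ (k + 1) * V x0 := by ring

/-- the ratio is at most `L > c` for arbitrarily large `x` -/
lemma freq_le {c L : ℝ} (hc : 1 < c) (hL : c < L) :
    ∃ᶠ x : ℝ in atTop, (V (c * x) : ℝ) / V x ≤ L := by
  by_contra hcon
  rw [not_frequently] at hcon
  obtain ⟨x1, hx1⟩ := eventually_atTop.1 hcon
  set x0 : ℝ := max x1 1 with hx0
  have h1 : ∀ x, x0 ≤ x → L * V x ≤ V (c * x) := by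
    intro x hx
    have h2 := hx1 x ((le_max_left _ _).trans hx)
    rw [not_le] at h2
    have h3 : 0 < (V x : ℝ) := by exact_mod_cast V_pos ((le_max_right x1 1).trans hx)
    rw [lt_div_iff₀ h3] at h2
    exact h2.le
  have hL0 : 0 < L := by linarith
  have h4 := geom_ge hc hL0 (le_max_right x1 1) h1
  have h5 := tendsto_geom hc (le_max_right x1 1)
  have h6 : Real.log L ≤ Real.log c := by
    refine ge_of_tendsto h5 ?_
    filter_upwards [eventually_gt_atTop 0] with k hk
    have hk' : (0 : ℝ) < k := by exact_mod_cast hk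
    rw [le_div_iff₀ hk']
    have h7 : (1 : ℝ) ≤ V x0 := by exact_mod_cast V_pos (le_max_right x1 1)
    have h8 : L ^ k ≤ (V (c ^ k * x0) : ℝ) := by
      refine le_trans ?_ (h4 k)
      have : 0 < L ^ k := pow_pos hL0 k
      nlinarith
    have h9 := Real.log_le_log (pow_pos hL0 k) h8
    rw [Real.log_pow] at h9
    linarith
  have h10 : Real.log c < Real.log L := Real.log_lt_log (by linarith) hL
  linarith

/-- the ratio is at least `l < c` for arbitrarily large `x` -/
lemma freq_ge {c l : ℝ} (hc : 1 < c) (hl : 0 < l) (hlc : l < c) :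
    ∃ᶠ x : ℝ in atTop, l ≤ (V (c * x) : ℝ) / V x := by
  by_contra hcon
  rw [not_frequently] at hcon
  obtain ⟨x1, hx1⟩ := eventually_atTop.1 hcon
  set x0 : ℝ := max x1 1 with hx0
  have h1 : ∀ x, x0 ≤ x → (V (c * x) : ℝ) ≤ l * V x := by
    intro x hx
    have h2 := hx1 x ((le_max_left _ _).trans hx)
    rw [not_le] at h2
    have h3 : 0 < (V x : ℝ) := by exact_mod_cast V_pos ((le_max_right x1 1).trans hx)
    rw [div_lt_iff₀ h3] at h2
    exact h2.le
  have h4 := geom_le hc hl (le_max_right x1 1) h1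
  have h5 := tendsto_geom hc (le_max_right x1 1)
  have h6 : Real.log c ≤ Real.log l := by
    have h11 : Tendsto (fun k : ℕ => Real.log l + Real.log (V x0) / k) atTop
        (𝓝 (Real.log l + 0)) :=
      tendsto_const_nhds.add (tendsto_const_nhds.div_atTop tendsto_natCast_atTop_atTop)
    rw [add_zero] at h11
    refine le_of_tendsto_of_tendsto h5 h11 ?_
    filter_upwards [eventually_gt_atTop 0] with k hk
    have hk' : (0 : ℝ) < k := by exact_mod_cast hk
    have h7 : (0 : ℝ) < V x0 := by exact_mod_cast V_pos (le_max_right x1 1)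
    have h12 : 1 ≤ c ^ k * x0 := by
      have h13 : 1 ≤ c ^ k := one_le_pow₀ hc.le
      have h14 : 1 ≤ x0 := le_max_right x1 1
      nlinarith
    have h8 : (0 : ℝ) < V (c ^ k * x0) := by exact_mod_cast V_pos h12
    have h9 := Real.log_le_log h8 (h4 k)
    rw [Real.log_mul (pow_pos hl k).ne' h7.ne', Real.log_pow] at h9
    rw [div_le_iff₀ hk']
    have h15 : (Real.log l + Real.log (V x0) / k) * k = k * Real.log l + Real.log (V x0) := by
      field_simp
    rw [h15]
    exact h9
  have h10 : Real.log l < Real.log c := Real.log_lt_log hl hlc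
  linarith

lemma liminf_le {c : ℝ} (hc : 1 < c) :
    liminf (fun x : ℝ => (((V (c * x) : ℝ) / V x : ℝ) : EReal)) atTop ≤ (c : EReal) := by
  refine EReal.le_of_forall_lt_iff_le.1 fun L hL => ?_
  have hL' : c < L := by exact_mod_cast hL
  refine liminf_le_of_frequently_le' ?_
  exact (freq_le hc hL').mono fun x hx => by exact_mod_cast hx

lemma le_limsup {c : ℝ} (hc : 1 < c) :
    (c : EReal) ≤ limsup (fun x : ℝ => (((V (c * x) : ℝ) / V x : ℝ) : EReal)) atTop := by
  refine EReal.ge_of_forall_gt_iff_ge.1 fun L hL => ?_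
  have hL' : L < c := by exact_mod_cast hL
  refine le_limsup_of_frequently_le' ?_
  have h1 : max L (c / 2) < c := max_lt hL' (by linarith)
  have h2 : 0 < max L (c / 2) := lt_of_lt_of_le (by linarith) (le_max_right _ _)
  refine (freq_ge hc h2 h1).mono fun x hx => ?_
  have h3 : L ≤ (V (c * x) : ℝ) / V x := (le_max_left _ _).trans hx
  exact_mod_cast h3

/-- if the ratio converges then the limit is `c` -/
lemma limit_eq {c L : ℝ} (hc : 1 < c)
    (h : Tendsto (fun x : ℝ => (V (c * x) : ℝ) / V x) atTop (𝓝 L)) : L = c := by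
  apply le_antisymm
  · refine le_of_forall_gt_imp_ge_of_dense fun M hM => ?_
    by_contra hcon
    have h1 : ∀ᶠ x : ℝ in atTop, M < (V (c * x) : ℝ) / V x :=
      h.eventually (lt_mem_nhds (not_le.1 hcon))
    obtain ⟨x, hx1, hx2⟩ := ((freq_le hc hM).and_eventually h1).exists
    linarith
  · refine le_of_forall_lt_imp_le_of_dense fun M hM => ?_
    by_contra hcon
    rw [not_le] at hcon
    set m : ℝ := max M (c / 2) with hm
    have hL0 : L < M := hcon
    have h1 : ∀ᶠ x : ℝ in atTop, (V (c * x) : ℝ) / V x < M :=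
      h.eventually (gt_mem_nhds hcon)
    have h2 : m < c := max_lt hM (by linarith)
    have h3 : 0 < m := lt_of_lt_of_le (by linarith) (le_max_right _ _)
    obtain ⟨x, hx1, hx2⟩ := ((freq_ge hc h3 h2).and_eventually h1).exists
    have h4 : M ≤ m := le_max_left _ _
    linarith

end Vale.Agent.P031
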