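import Vale.Agent.P031.Double

namespace Vale.Agent.P031

open Filter Topology

/-- `F t = log V(e^t)` -/
noncomputable def F (t : ℝ) : ℝ := Real.log (V (Real.exp t))

lemma F_mono : Monotone F := by
  intro s t h
  unfold F
  have h1 : V (Real.exp s) ≤ V (Real.exp t) := V_mono (Real.exp_le_exp.2 h)
  rcases Nat.eq_zero_or_pos (V (Real.exp s)) with h0 | h0
  · rw [h0, Nat.cast_zero, Real.log_zero]
    exact Real.log_natCast_nonneg _
  · exact Real.log_le_log (by exact_mod_cast h0) (by exact_mod_cast h1)

lemma F_tendsto : Tendsto (fun T : ℝ => F T / T) atTop (𝓝 1) := by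
  refine (tendsto_logV.comp Real.tendsto_exp_atTop).congr fun T => ?_
  simp only [Function.comp, F, Real.log_exp]

lemma F_shift (h : ℝ) : Tendsto (fun T : ℝ => F (T + h) / T) atTop (𝓝 1) := by
  have h1 : Tendsto (fun T : ℝ => T + h) atTop atTop := tendsto_atTop_add_const_right _ _ tendsto_id
  have h2 := F_tendsto.comp h1
  have h3 : Tendsto (fun T : ℝ => 1 + h / T) atTop (𝓝 (1 + 0)) :=
    tendsto_const_nhds.add (tendsto_const_nhds.div_atTop tendsto_id)
  have h4 := h2.mul h3
  rw [add_zero, one_mul] at h4
  refine h4.congr' ?_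
  filter_upwards [eventually_gt_atTop (max 0 (-h))] with T hT
  have h5 : 0 < T := (le_max_left _ _).trans_lt hT
  have h6 : 0 < T + h := by
    have := (le_max_right 0 (-h)).trans_lt hT
    linarith
  simp only [Function.comp]
  field_simp

lemma F_int (a b : ℝ) : IntervalIntegrable F MeasureTheory.volume a b :=
  F_mono.intervalIntegrable

lemma mean_aux {h : ℝ} (hh : 0 ≤ h) :
    Tendsto (fun T : ℝ => (∫ t in (0 : ℝ)..T, (F (t + h) - F t)) / T) atTop (𝓝 h) := by
  have key : ∀ T : ℝ, (∫ t in (0 : ℝ)..T, (F (t + h) - F t))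
      = (∫ t in T..(T + h), F t) - ∫ t in (0 : ℝ)..h, F t := by
    intro T
    have hi : IntervalIntegrable (fun t => F (t + h)) MeasureTheory.volume 0 T := by
      have : Monotone fun t => F (t + h) := fun s t hst => F_mono (by linarith)
      exact this.intervalIntegrable
    rw [intervalIntegral.integral_sub hi (F_int 0 T),
      intervalIntegral.integral_comp_add_right (fun t => F t) h, zero_add]
    have h1 := intervalIntegral.integral_add_adjacent_intervals (F_int 0 h) (F_int h (T + h))
    have h2 := intervalIntegral.integral_add_adjacent_intervals (F_int 0 T) (F_int T (T + h))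
    linarith
  have hlow : ∀ T : ℝ, h * F T ≤ ∫ t in T..(T + h), F t := by
    intro T
    have h1 : ∫ _t in T..(T + h), F T ≤ ∫ t in T..(T + h), F t := by
      refine intervalIntegral.integral_mono_on (by linarith) (by simp) (F_int _ _) ?_
      intro t ht
      exact F_mono ht.1
    rw [intervalIntegral.integral_const] at h1
    simpa using h1
  have hup : ∀ T : ℝ, (∫ t in T..(T + h), F t) ≤ h * F (T + h) := by
    intro T
    have h1 : ∫ t in T..(T + h), F t ≤ ∫ _t in T..(T + h), F (T + h) := by
      refine intervalIntegral.integral_mono_on (by linarith) (F_int _ _) (by simp) ?_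
      intro t ht
      exact F_mono ht.2
    rw [intervalIntegral.integral_const] at h1
    simpa using h1
  set K : ℝ := ∫ t in (0 : ℝ)..h, F t with hK
  have hz : Tendsto (fun T : ℝ => K / T) atTop (𝓝 0) := tendsto_const_nhds.div_atTop tendsto_id
  have hl : Tendsto (fun T : ℝ => h * (F T / T) - K / T) atTop (𝓝 h) := by
    have := (F_tendsto.const_mul h).sub hz
    rwa [mul_one, sub_zero] at this
  have hu : Tendsto (fun T : ℝ => h * (F (T + h) / T) - K / T) atTop (𝓝 h) := by
    have := ((F_shift h).const_mul h).sub hz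
    rwa [mul_one, sub_zero] at this
  refine tendsto_of_tendsto_of_tendsto_of_le_of_le' hl hu ?_ ?_
  · filter_upwards [eventually_gt_atTop 0] with T hT
    rw [key, le_div_iff₀ hT]
    have h1 : (h * (F T / T) - K / T) * T = h * F T - K := by
      field_simp
    rw [h1]
    have := hlow T
    linarith
  · filter_upwards [eventually_gt_atTop 0] with T hT
    rw [key, div_le_iff₀ hT]
    have h1 : (h * (F (T + h) / T) - K / T) * T = h * F (T + h) - K := by
      field_simp
    rw [h1]
    have := hup T
    linarith

/-- the ratio tends to `c` in the logarithmic (geometric) mean -/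
lemma mean {c : ℝ} (hc : 1 < c) :
    Tendsto (fun T : ℝ => (∫ t in (0 : ℝ)..T,
      Real.log ((V (c * Real.exp t) : ℝ) / V (Real.exp t))) / T) atTop (𝓝 (Real.log c)) := by
  have hl : 0 ≤ Real.log c := (Real.log_pos hc).le
  refine (mean_aux hl).congr' ?_
  filter_upwards [eventually_gt_atTop 0] with T hT
  congr 1
  refine intervalIntegral.integral_congr ?_
  intro t ht
  rw [Set.uIcc_of_le hT.le] at ht
  have h1 : (1 : ℝ) ≤ Real.exp t := Real.one_le_exp ht.1
  have h2 : (1 : ℝ) ≤ c * Real.exp t := by nlinarith
  have h3 : (V (Real.exp t) : ℝ) ≠ 0 := by exact_mod_cast (V_pos h1).ne'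
  have h4 : (V (c * Real.exp t) : ℝ) ≠ 0 := by exact_mod_cast (V_pos h2).ne'
  simp only [F]
  rw [Real.log_div h4 h3, Real.exp_add, Real.exp_log (by linarith), mul_comm (Real.exp t) c]

end Vale.Agent.P031
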